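import Mathlib

/-!
# One-dimensional oscillatory integrals

Van der Corput's lemma with a second-derivative bound, and the non-stationary estimate.
-/

namespace Vale.Agent.P122.H567

open MeasureTheory Set intervalIntegral Complex

/-- the oscillating factor. -/
noncomputable def ex (Φ : ℝ → ℝ) (t : ℝ) : ℂ := Complex.exp (Complex.I * (Φ t : ℂ))

lemma norm_ex (Φ : ℝ → ℝ) (t : ℝ) : ‖ex Φ t‖ = 1 := by
  unfold ex
  rw [mul_comm, Complex.norm_exp_ofReal_mul_I]

lemma hasDerivAt_ex {Φ : ℝ → ℝ} {d : ℝ} {t : ℝ} (h : HasDerivAt Φ d t) :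
    HasDerivAt (ex Φ) (Complex.I * d * ex Φ t) t := by
  unfold ex
  have h1 : HasDerivAt (fun t => Complex.I * (Φ t : ℂ)) (Complex.I * (d : ℂ)) t :=
    (h.ofReal_comp).const_mul _
  have := h1.cexp
  simpa [mul_comm, mul_left_comm, mul_assoc] using this

lemma continuousOn_ex {Φ : ℝ → ℝ} {s : Set ℝ} (h : ContinuousOn Φ s) : ContinuousOn (ex Φ) s := by
  unfold ex
  exact (Complex.continuous_exp.comp_continuousOn
    (continuousOn_const.mul (Complex.continuous_ofReal.comp_continuousOn h)))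

/-- first derivative test: `Φ'` monotone and `≥ μ > 0` on `[a,b]`. -/
lemma first_test {Φ Φ' Φ'' : ℝ → ℝ} {a b μ : ℝ} (hab : a ≤ b) (hμ : 0 < μ)
    (h1 : ∀ t ∈ Icc a b, HasDerivAt Φ (Φ' t) t)
    (h2 : ∀ t ∈ Icc a b, HasDerivAt Φ' (Φ'' t) t)
    (h2c : ContinuousOn Φ'' (Icc a b))
    (hmono : ∀ t ∈ Icc a b, 0 ≤ Φ'' t)
    (hlow : (∀ t ∈ Icc a b, μ ≤ Φ' t) ∨ (∀ t ∈ Icc a b, Φ' t ≤ -μ)) :
    ‖∫ t in a..b, ex Φ t‖ ≤ 3 / μ := by
  have hne : ∀ t ∈ Icc a b, Φ' t ≠ 0 := by
    intro t ht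
    rcases hlow with h | h
    · have := h t ht; linarith
    · have := h t ht; linarith
  have habs : ∀ t ∈ Icc a b, μ ≤ |Φ' t| := by
    intro t ht
    rcases hlow with h | h
    · exact (h t ht).trans (le_abs_self _)
    · have := h t ht
      rw [abs_of_neg (by linarith)]; linarith
  have hu : uIcc a b = Icc a b := uIcc_of_le hab
  -- the antiderivative identity
  have hder : ∀ t ∈ uIcc a b, HasDerivAt (fun t => ex Φ t / (Complex.I * (Φ' t : ℂ)))
      (ex Φ t - ex Φ t * ((Φ'' t : ℂ) / (Complex.I * (Φ' t : ℂ) ^ 2))) t := by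
    intro t ht
    rw [hu] at ht
    have e1 := hasDerivAt_ex (h1 t ht)
    have e2 : HasDerivAt (fun t => Complex.I * (Φ' t : ℂ)) (Complex.I * (Φ'' t : ℂ)) t :=
      ((h2 t ht).ofReal_comp).const_mul _
    have hn : (Complex.I * (Φ' t : ℂ)) ≠ 0 := by
      simp [hne t ht]
    have e3 := e1.div e2 hn
    have hn' : (Φ' t : ℂ) ≠ 0 := by exact_mod_cast hne t ht
    have e4 : (Complex.I * (Φ' t : ℂ) * ex Φ t * (Complex.I * (Φ' t : ℂ))
        - ex Φ t * (Complex.I * (Φ'' t : ℂ))) / (Complex.I * (Φ' t : ℂ)) ^ 2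
        = ex Φ t - ex Φ t * ((Φ'' t : ℂ) / (Complex.I * (Φ' t : ℂ) ^ 2)) := by
      have hI : Complex.I ≠ 0 := Complex.I_ne_zero
      field_simp
    rw [← e4]
    exact e3
  have hcΦ : ContinuousOn Φ (Icc a b) := fun t ht => (h1 t ht).continuousAt.continuousWithinAt
  have hcΦ' : ContinuousOn Φ' (Icc a b) := fun t ht => (h2 t ht).continuousAt.continuousWithinAt
  have hcex := continuousOn_ex hcΦ
  have hc2 : ContinuousOn (fun t => ex Φ t * ((Φ'' t : ℂ) / (Complex.I * (Φ' t : ℂ) ^ 2)))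
      (Icc a b) := by
    refine hcex.mul (ContinuousOn.div (Complex.continuous_ofReal.comp_continuousOn h2c)
      (continuousOn_const.mul ((Complex.continuous_ofReal.comp_continuousOn hcΦ').pow 2)) ?_)
    intro t ht
    have := hne t ht
    simp [this]
  have hI1 : IntervalIntegrable (fun t => ex Φ t) volume a b :=
    (hcex.mono (by rw [hu])).intervalIntegrable
  have hI2 : IntervalIntegrable
      (fun t => ex Φ t * ((Φ'' t : ℂ) / (Complex.I * (Φ' t : ℂ) ^ 2))) volume a b :=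
    (hc2.mono (by rw [hu])).intervalIntegrable
  have key := integral_eq_sub_of_hasDerivAt hder (hI1.sub hI2)
  rw [intervalIntegral.integral_sub hI1 hI2] at key
  have hsplit : (∫ t in a..b, ex Φ t) =
      (ex Φ b / (Complex.I * (Φ' b : ℂ)) - ex Φ a / (Complex.I * (Φ' a : ℂ))) +
      ∫ t in a..b, ex Φ t * ((Φ'' t : ℂ) / (Complex.I * (Φ' t : ℂ) ^ 2)) := by
    rw [← key]; ring
  have hb : b ∈ Icc a b := ⟨hab, le_refl _⟩
  have ha : a ∈ Icc a b := ⟨le_refl _, hab⟩
  have n1 : ∀ t ∈ Icc a b, ‖ex Φ t / (Complex.I * (Φ' t : ℂ))‖ ≤ 1 / μ := by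
    intro t ht
    rw [norm_div, norm_ex, norm_mul, Complex.norm_I, one_mul, Complex.norm_real, Real.norm_eq_abs]
    exact one_div_le_one_div_of_le hμ (habs t ht)
  -- the integral of |Φ''| / Φ'^2
  have n2 : ‖∫ t in a..b, ex Φ t * ((Φ'' t : ℂ) / (Complex.I * (Φ' t : ℂ) ^ 2))‖ ≤ 1 / μ := by
    have hd3 : ∀ t ∈ uIcc a b, HasDerivAt (fun t => -(Φ' t)⁻¹) (Φ'' t / (Φ' t) ^ 2) t := by
      intro t ht
      rw [hu] at ht
      have := ((h2 t ht).inv (hne t ht)).neg
      have e : Φ'' t / (Φ' t) ^ 2 = -(-Φ'' t / (Φ' t) ^ 2) := by ring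
      rw [e]
      exact this
    have hc3 : ContinuousOn (fun t => Φ'' t / (Φ' t) ^ 2) (Icc a b) :=
      h2c.div (hcΦ'.pow 2) (fun t ht => by have := hne t ht; positivity)
    have hI3 : IntervalIntegrable (fun t => Φ'' t / (Φ' t) ^ 2) volume a b :=
      (hc3.mono (by rw [hu])).intervalIntegrable
    have k3 := integral_eq_sub_of_hasDerivAt hd3 hI3
    calc ‖∫ t in a..b, ex Φ t * ((Φ'' t : ℂ) / (Complex.I * (Φ' t : ℂ) ^ 2))‖
        ≤ ∫ t in a..b, ‖ex Φ t * ((Φ'' t : ℂ) / (Complex.I * (Φ' t : ℂ) ^ 2))‖ :=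
          intervalIntegral.norm_integral_le_integral_norm hab
      _ = ∫ t in a..b, Φ'' t / (Φ' t) ^ 2 := by
          refine intervalIntegral.integral_congr ?_
          intro t ht
          rw [hu] at ht
          simp only [norm_mul, norm_ex, one_mul, norm_div, Complex.norm_I, norm_pow,
            Complex.norm_real, Real.norm_eq_abs, sq_abs]
          rw [abs_of_nonneg (hmono t ht)]
      _ = -(Φ' b)⁻¹ - -(Φ' a)⁻¹ := k3
      _ ≤ 1 / μ := by
          rcases hlow with h | h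
          · have p1 := h a ha
            have p2 := h b hb
            have q1 : (Φ' a)⁻¹ ≤ 1 / μ := by
              rw [inv_eq_one_div]; exact one_div_le_one_div_of_le hμ p1
            have q2 : 0 < (Φ' b)⁻¹ := inv_pos.mpr (by linarith)
            linarith
          · have p1 := h a ha
            have p2 := h b hb
            have q1 : -(Φ' b)⁻¹ ≤ 1 / μ := by
              rw [← inv_neg, inv_eq_one_div]
              exact one_div_le_one_div_of_le hμ (by linarith)
            have q2 : (Φ' a)⁻¹ < 0 := inv_lt_zero.mpr (by linarith)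
            linarith
  rw [hsplit]
  calc ‖(ex Φ b / (Complex.I * (Φ' b : ℂ)) - ex Φ a / (Complex.I * (Φ' a : ℂ))) +
      ∫ t in a..b, ex Φ t * ((Φ'' t : ℂ) / (Complex.I * (Φ' t : ℂ) ^ 2))‖
      ≤ (‖ex Φ b / (Complex.I * (Φ' b : ℂ))‖ + ‖ex Φ a / (Complex.I * (Φ' a : ℂ))‖) +
        ‖∫ t in a..b, ex Φ t * ((Φ'' t : ℂ) / (Complex.I * (Φ' t : ℂ) ^ 2))‖ :=
        (norm_add_le _ _).trans (add_le_add (norm_sub_le _ _) le_rfl)
    _ ≤ (1 / μ + 1 / μ) + 1 / μ := add_le_add (add_le_add (n1 b hb) (n1 a ha)) n2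
    _ = 3 / μ := by ring

/-- trivial bound. -/
lemma norm_int_ex_le (Φ : ℝ → ℝ) {a b : ℝ} (hab : a ≤ b) : ‖∫ t in a..b, ex Φ t‖ ≤ b - a := by
  have := intervalIntegral.norm_integral_le_of_norm_le_const (f := ex Φ) (a := a) (b := b)
    (C := 1) (fun t _ => (norm_ex Φ t).le)
  rwa [one_mul, abs_of_nonneg (by linarith)] at this

/-- splitting an interval at a level of a monotone continuous function. -/
lemma split_level {f : ℝ → ℝ} {a b v : ℝ} (hab : a ≤ b) (hf : MonotoneOn f (Icc a b))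
    (hc : ContinuousOn f (Icc a b)) :
    ∃ c ∈ Icc a b, (c = a ∨ ∀ t ∈ Icc a c, f t ≤ v) ∧ (c = b ∨ ∀ t ∈ Icc c b, v ≤ f t) := by
  have ha : a ∈ Icc a b := ⟨le_refl _, hab⟩
  have hb : b ∈ Icc a b := ⟨hab, le_refl _⟩
  by_cases h1 : v < f a
  · exact ⟨a, ha, Or.inl rfl, Or.inr fun t ht => h1.le.trans (hf ha ht ht.1)⟩
  by_cases h2 : f b < v
  · exact ⟨b, hb, Or.inr fun t ht => (hf ht hb ht.2).trans h2.le, Or.inl rfl⟩
  push Not at h1 h2
  obtain ⟨c, hcm, hcv⟩ := intermediate_value_Icc hab hc ⟨h1, h2⟩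
  refine ⟨c, hcm, Or.inr fun t ht => ?_, Or.inr fun t ht => ?_⟩
  · rw [← hcv]; exact hf ⟨ht.1, ht.2.trans hcm.2⟩ hcm ht.2
  · rw [← hcv]; exact hf hcm ⟨hcm.1.trans ht.1, ht.2⟩ ht.1

/-- **Van der Corput's lemma**, second derivative. -/
theorem vdc {Φ Φ' Φ'' : ℝ → ℝ} {a b lam : ℝ} (hab : a ≤ b) (hlam : 0 < lam)
    (h1 : ∀ t, HasDerivAt Φ (Φ' t) t) (h2 : ∀ t, HasDerivAt Φ' (Φ'' t) t)
    (h2c : Continuous Φ'') (hlow : ∀ t ∈ Icc a b, lam ≤ Φ'' t) :
    ‖∫ t in a..b, ex Φ t‖ ≤ 8 / Real.sqrt lam := by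
  set μ := Real.sqrt lam with hμdef
  have hμ : 0 < μ := Real.sqrt_pos.mpr hlam
  have hμ2 : μ * μ = lam := Real.mul_self_sqrt hlam.le
  have hcont : Continuous Φ' := continuous_iff_continuousAt.mpr fun t => (h2 t).continuousAt
  have hcΦ : Continuous Φ := continuous_iff_continuousAt.mpr fun t => (h1 t).continuousAt
  have hgrow : ∀ x ∈ Icc a b, ∀ y ∈ Icc a b, x ≤ y → lam * (y - x) ≤ Φ' y - Φ' x := by
    intro x hx y hy hxy
    have hm : MonotoneOn (fun t => Φ' t - lam * t) (Icc a b) := by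
      refine monotoneOn_of_deriv_nonneg (convex_Icc a b) ?_ ?_ ?_
      · exact (hcont.sub (continuous_const.mul continuous_id)).continuousOn
      · exact fun t _ => ((h2 t).sub ((hasDerivAt_id t).const_mul lam)).differentiableAt.differentiableWithinAt
      · intro t ht
        rw [interior_Icc] at ht
        have hd : HasDerivAt (fun t => Φ' t - lam * t) (Φ'' t - lam * 1) t :=
          (h2 t).sub ((hasDerivAt_id t).const_mul lam)
        rw [hd.deriv]
        have := hlow t ⟨ht.1.le, ht.2.le⟩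
        linarith
    have := hm hx hy hxy
    simp only at this
    nlinarith
  have hmono : MonotoneOn Φ' (Icc a b) := by
    intro x hx y hy hxy
    have := hgrow x hx y hy hxy
    nlinarith [mul_nonneg hlam.le (sub_nonneg.mpr hxy)]
  obtain ⟨c, hc, hc1, hc2⟩ := split_level (v := -μ) hab hmono hcont.continuousOn
  obtain ⟨d, hd, hd1, hd2⟩ := split_level (v := μ) hc.2
    (hmono.mono (Icc_subset_Icc_left hc.1)) hcont.continuousOn
  have hi : ∀ x y : ℝ, IntervalIntegrable (ex Φ) volume x y := fun x y =>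
    ((continuousOn_ex (s := uIcc x y) hcΦ.continuousOn)).intervalIntegrable
  have hs : ∫ t in a..b, ex Φ t = (∫ t in a..c, ex Φ t) + (∫ t in c..d, ex Φ t)
      + ∫ t in d..b, ex Φ t := by
    rw [integral_add_adjacent_intervals (hi a c) (hi c d),
      integral_add_adjacent_intervals (hi a d) (hi d b)]
  have b1 : ‖∫ t in a..c, ex Φ t‖ ≤ 3 / μ := by
    rcases hc1 with h | h
    · rw [h, intervalIntegral.integral_same, norm_zero]; positivity
    · exact first_test hc.1 hμ (fun t _ => h1 t) (fun t _ => h2 t) h2c.continuousOn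
        (fun t ht => hlam.le.trans (hlow t ⟨ht.1, ht.2.trans hc.2⟩)) (Or.inr h)
  have b3 : ‖∫ t in d..b, ex Φ t‖ ≤ 3 / μ := by
    rcases hd2 with h | h
    · rw [h, intervalIntegral.integral_same, norm_zero]; positivity
    · exact first_test hd.2 hμ (fun t _ => h1 t) (fun t _ => h2 t) h2c.continuousOn
        (fun t ht => hlam.le.trans (hlow t ⟨hc.1.trans (hd.1.trans ht.1), ht.2⟩)) (Or.inl h)
  have b2 : ‖∫ t in c..d, ex Φ t‖ ≤ 2 / μ := by
    refine (norm_int_ex_le Φ hd.1).trans ?_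
    rcases hd1 with h | h
    · rw [h, sub_self]; positivity
    · by_cases hcd : c = d
      · rw [hcd, sub_self]; positivity
      have hlt : c < d := lt_of_le_of_ne hd.1 hcd
      have hcb : c ≠ b := fun hh => by
        rw [hh] at hlt; exact absurd hd.2 (not_le.mpr hlt)
      have e1 : -μ ≤ Φ' c := by
        rcases hc2 with h' | h'
        · exact absurd h' hcb
        · exact h' c ⟨le_refl _, hc.2⟩
      have e2 : Φ' d ≤ μ := h d ⟨hd.1, le_refl _⟩
      have e3 := hgrow c hc d ⟨hc.1.trans hd.1, hd.2⟩ hd.1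
      have e4 : μ * (μ * (d - c)) ≤ 2 * μ := by
        rw [← mul_assoc, hμ2]; linarith
      rw [le_div_iff₀ hμ]
      nlinarith
  rw [hs]
  calc ‖(∫ t in a..c, ex Φ t) + (∫ t in c..d, ex Φ t) + ∫ t in d..b, ex Φ t‖
      ≤ (‖∫ t in a..c, ex Φ t‖ + ‖∫ t in c..d, ex Φ t‖) + ‖∫ t in d..b, ex Φ t‖ :=
        (norm_add_le _ _).trans (add_le_add (norm_add_le _ _) le_rfl)
    _ ≤ (3 / μ + 2 / μ) + 3 / μ := add_le_add (add_le_add b1 b2) b3
    _ = 8 / μ := by ring

/-- **Van der Corput with amplitude**: `u` is `C¹` and vanishes outside `[a, b]`. -/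
theorem vdc_amp {Φ Φ' Φ'' : ℝ → ℝ} {u u' : ℝ → ℂ} {a b lam : ℝ} (hab : a ≤ b) (hlam : 0 < lam)
    (h1 : ∀ t, HasDerivAt Φ (Φ' t) t) (h2 : ∀ t, HasDerivAt Φ' (Φ'' t) t)
    (h2c : Continuous Φ'') (hlow : ∀ t ∈ Icc a b, lam ≤ Φ'' t)
    (hu : ∀ t, HasDerivAt u (u' t) t) (huc : Continuous u') (hub : u b = 0)
    (hsupp : ∀ t, t ∉ Icc a b → u t = 0) :
    ‖∫ t, ex Φ t * u t‖ ≤ 8 / Real.sqrt lam * ∫ t in a..b, ‖u' t‖ := by
  have hcΦ : Continuous Φ := continuous_iff_continuousAt.mpr fun t => (h1 t).continuousAt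
  have hcex : Continuous (ex Φ) := continuousOn_univ.mp (continuousOn_ex hcΦ.continuousOn)
  have hcu : Continuous u := continuous_iff_continuousAt.mpr fun t => (hu t).continuousAt
  -- reduce to the interval
  have e0 : ∫ t, ex Φ t * u t = ∫ t in a..b, ex Φ t * u t := by
    rw [intervalIntegral.integral_of_le hab, ← integral_Icc_eq_integral_Ioc,
      setIntegral_eq_integral_of_forall_compl_eq_zero]
    intro t ht
    rw [hsupp t ht, mul_zero]
  set G : ℝ → ℂ := fun t => ∫ s in a..t, ex Φ s with hG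
  have hGd : ∀ t, HasDerivAt G (ex Φ t) t := fun t =>
    integral_hasDerivAt_right (hcex.intervalIntegrable _ _)
      (hcex.stronglyMeasurableAtFilter _ _) hcex.continuousAt
  have hGc : Continuous G := continuous_iff_continuousAt.mpr fun t => (hGd t).continuousAt
  have e1 : ∫ t in a..b, u t * ex Φ t = u b * G b - u a * G a - ∫ t in a..b, u' t * G t :=
    intervalIntegral.integral_mul_deriv_eq_deriv_mul (fun t _ => hu t) (fun t _ => hGd t)
      (huc.intervalIntegrable _ _) (hcex.intervalIntegrable _ _)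
  have hGa : G a = 0 := by simp [hG]
  rw [hub, hGa, zero_mul, mul_zero, sub_zero, zero_sub] at e1
  have e2 : ∫ t in a..b, ex Φ t * u t = ∫ t in a..b, u t * ex Φ t := by
    simp_rw [mul_comm]
  rw [e0, e2, e1, norm_neg]
  calc ‖∫ t in a..b, u' t * G t‖ ≤ ∫ t in a..b, ‖u' t * G t‖ :=
        intervalIntegral.norm_integral_le_integral_norm hab
    _ ≤ ∫ t in a..b, 8 / Real.sqrt lam * ‖u' t‖ := by
        refine intervalIntegral.integral_mono_on hab ?_ ?_ ?_
        · exact ((huc.mul hGc).norm).intervalIntegrable _ _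
        · exact (continuous_const.mul huc.norm).intervalIntegrable _ _
        · intro t ht
          rw [norm_mul, mul_comm]
          refine mul_le_mul_of_nonneg_right ?_ (norm_nonneg _)
          exact vdc ht.1 hlam h1 h2 h2c (fun s hs => hlow s ⟨hs.1, hs.2.trans ht.2⟩)
    _ = 8 / Real.sqrt lam * ∫ t in a..b, ‖u' t‖ := intervalIntegral.integral_const_mul _ _

/-- conjugation: the same for `Φ'' ≤ -lam`. -/
theorem vdc_amp_neg {Φ Φ' Φ'' : ℝ → ℝ} {u u' : ℝ → ℂ} {a b lam : ℝ} (hab : a ≤ b) (hlam : 0 < lam)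
    (h1 : ∀ t, HasDerivAt Φ (Φ' t) t) (h2 : ∀ t, HasDerivAt Φ' (Φ'' t) t)
    (h2c : Continuous Φ'') (hlow : ∀ t ∈ Icc a b, Φ'' t ≤ -lam)
    (hu : ∀ t, HasDerivAt u (u' t) t) (huc : Continuous u') (hub : u b = 0)
    (hsupp : ∀ t, t ∉ Icc a b → u t = 0) :
    ‖∫ t, ex Φ t * u t‖ ≤ 8 / Real.sqrt lam * ∫ t in a..b, ‖u' t‖ := by
  have hconj : ∀ t, (starRingEnd ℂ) (ex Φ t) = ex (fun t => -Φ t) t := by
    intro t
    unfold ex
    rw [← Complex.exp_conj]
    congr 1
    simp
  have hkey := vdc_amp (Φ := fun t => -Φ t) (Φ' := fun t => -Φ' t) (Φ'' := fun t => -Φ'' t)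
    (u := fun t => (starRingEnd ℂ) (u t)) (u' := fun t => (starRingEnd ℂ) (u' t)) hab hlam
    (fun t => (h1 t).neg) (fun t => (h2 t).neg) h2c.neg
    (fun t ht => by have := hlow t ht; linarith)
    (fun t => (hu t).star) (by fun_prop) (by simp [hub])
    (fun t ht => by simp [hsupp t ht])
  have e : ∫ t, ex (fun t => -Φ t) t * (starRingEnd ℂ) (u t)
      = (starRingEnd ℂ) (∫ t, ex Φ t * u t) := by
    rw [← integral_conj]
    refine integral_congr_ae (Filter.Eventually.of_forall fun t => ?_)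
    simp only [map_mul, hconj]
  rw [e, RCLike.norm_conj] at hkey
  simpa using hkey

/-- **Non-stationary phase** (one integration by parts). -/
theorem nonstat {Φ Φ' Φ'' : ℝ → ℝ} {u u' : ℝ → ℂ} {a b μ : ℝ} (hab : a ≤ b) (hμ : 0 < μ)
    (h1 : ∀ t, HasDerivAt Φ (Φ' t) t) (h2 : ∀ t, HasDerivAt Φ' (Φ'' t) t)
    (h2c : Continuous Φ'') (hlow : ∀ t ∈ Icc a b, μ ≤ |Φ' t|)
    (hu : ∀ t, HasDerivAt u (u' t) t) (huc : Continuous u') (hua : u a = 0) (hub : u b = 0)
    (hsupp : ∀ t, t ∉ Icc a b → u t = 0) :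
    ‖∫ t, ex Φ t * u t‖ ≤ (∫ t in a..b, ‖u' t‖) / μ + (∫ t in a..b, ‖u t‖ * |Φ'' t|) / μ ^ 2 := by
  have hΦ' : Continuous Φ' := continuous_iff_continuousAt.mpr fun t => (h2 t).continuousAt
  have hcΦ : Continuous Φ := continuous_iff_continuousAt.mpr fun t => (h1 t).continuousAt
  have hcex : Continuous (ex Φ) := continuousOn_univ.mp (continuousOn_ex hcΦ.continuousOn)
  have hcu : Continuous u := continuous_iff_continuousAt.mpr fun t => (hu t).continuousAt
  have hU : uIcc a b = Icc a b := uIcc_of_le hab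
  have hne : ∀ t ∈ Icc a b, (Φ' t : ℂ) ≠ 0 := by
    intro t ht h0
    have h0' : Φ' t = 0 := by exact_mod_cast h0
    have := hlow t ht
    rw [h0', abs_zero] at this
    linarith
  have e0 : ∫ t, ex Φ t * u t = ∫ t in a..b, ex Φ t * u t := by
    rw [intervalIntegral.integral_of_le hab, ← integral_Icc_eq_integral_Ioc,
      setIntegral_eq_integral_of_forall_compl_eq_zero]
    intro t ht
    rw [hsupp t ht, mul_zero]
  set w : ℝ → ℂ := fun t => u t / (Complex.I * (Φ' t : ℂ)) with hw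
  set w' : ℝ → ℂ := fun t => u' t / (Complex.I * (Φ' t : ℂ))
    - u t * (Φ'' t : ℂ) / (Complex.I * (Φ' t : ℂ) ^ 2) with hw'
  have hwd : ∀ t ∈ uIcc a b, HasDerivAt w (w' t) t := by
    intro t ht
    rw [hU] at ht
    have e2 : HasDerivAt (fun t => Complex.I * (Φ' t : ℂ)) (Complex.I * (Φ'' t : ℂ)) t :=
      ((h2 t).ofReal_comp).const_mul _
    have hn : (Complex.I * (Φ' t : ℂ)) ≠ 0 := mul_ne_zero Complex.I_ne_zero (hne t ht)
    have e3 := (hu t).div e2 hn
    have e4 : (u' t * (Complex.I * (Φ' t : ℂ)) - u t * (Complex.I * (Φ'' t : ℂ)))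
        / (Complex.I * (Φ' t : ℂ)) ^ 2 = w' t := by
      have hI : Complex.I ≠ 0 := Complex.I_ne_zero
      have := hne t ht
      simp only [hw']
      field_simp
    rw [← e4]
    exact e3
  have hcΦ'' : Continuous fun t => (Φ'' t : ℂ) := Complex.continuous_ofReal.comp h2c
  have hcΦ1 : Continuous fun t => (Φ' t : ℂ) := Complex.continuous_ofReal.comp hΦ'
  have hw'c : ContinuousOn w' (Icc a b) := by
    refine ContinuousOn.sub (ContinuousOn.div huc.continuousOn
      (continuous_const.mul hcΦ1).continuousOn fun t ht =>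
        mul_ne_zero Complex.I_ne_zero (hne t ht)) (ContinuousOn.div
        (hcu.mul hcΦ'').continuousOn (continuous_const.mul (hcΦ1.pow 2)).continuousOn
        fun t ht => mul_ne_zero Complex.I_ne_zero (pow_ne_zero 2 (hne t ht)))
  have hid : ∀ t ∈ uIcc a b, HasDerivAt (ex Φ) (Complex.I * (Φ' t : ℂ) * ex Φ t) t :=
    fun t _ => hasDerivAt_ex (h1 t)
  have hic : Continuous fun t => Complex.I * (Φ' t : ℂ) * ex Φ t :=
    (continuous_const.mul hcΦ1).mul hcex
  have e1 : ∫ t in a..b, w t * (Complex.I * (Φ' t : ℂ) * ex Φ t)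
      = w b * ex Φ b - w a * ex Φ a - ∫ t in a..b, w' t * ex Φ t :=
    intervalIntegral.integral_mul_deriv_eq_deriv_mul hwd hid
      ((hw'c.mono (by rw [hU])).intervalIntegrable) (hic.intervalIntegrable _ _)
  have e2 : ∫ t in a..b, ex Φ t * u t = ∫ t in a..b, w t * (Complex.I * (Φ' t : ℂ) * ex Φ t) := by
    refine intervalIntegral.integral_congr fun t ht => ?_
    rw [hU] at ht
    have := hne t ht
    have hI : Complex.I ≠ 0 := Complex.I_ne_zero
    simp only [hw]
    field_simp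
  have hwa : w a = 0 := by simp [hw, hua]
  have hwb : w b = 0 := by simp [hw, hub]
  rw [hwa, hwb, zero_mul, zero_mul, sub_zero, zero_sub] at e1
  rw [e0, e2, e1, norm_neg]
  have hg1 : IntervalIntegrable (fun t => ‖u' t‖ / μ) volume a b :=
    (huc.norm.div_const μ).intervalIntegrable _ _
  have hg2 : IntervalIntegrable (fun t => ‖u t‖ * |Φ'' t| / μ ^ 2) volume a b :=
    ((hcu.norm.mul h2c.abs).div_const _).intervalIntegrable _ _
  calc ‖∫ t in a..b, w' t * ex Φ t‖ ≤ ∫ t in a..b, ‖w' t * ex Φ t‖ :=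
        intervalIntegral.norm_integral_le_integral_norm hab
    _ ≤ ∫ t in a..b, (‖u' t‖ / μ + ‖u t‖ * |Φ'' t| / μ ^ 2) := by
        refine intervalIntegral.integral_mono_on hab ?_ (hg1.add hg2) ?_
        · exact (((hw'c.mul hcex.continuousOn).norm).mono (by rw [hU])).intervalIntegrable
        · intro t ht
          have hl := hlow t ht
          rw [norm_mul, norm_ex, mul_one]
          refine (norm_sub_le _ _).trans (add_le_add ?_ ?_)
          · rw [norm_div, norm_mul, Complex.norm_I, one_mul, Complex.norm_real, Real.norm_eq_abs]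
            exact div_le_div_of_nonneg_left (norm_nonneg _) hμ hl
          · rw [norm_div, norm_mul, norm_mul, Complex.norm_I, one_mul, norm_pow,
              Complex.norm_real, Complex.norm_real, Real.norm_eq_abs, Real.norm_eq_abs]
            exact div_le_div_of_nonneg_left (by positivity) (by positivity)
              (pow_le_pow_left₀ hμ.le hl 2)
    _ = (∫ t in a..b, ‖u' t‖) / μ + (∫ t in a..b, ‖u t‖ * |Φ'' t|) / μ ^ 2 := by
        rw [intervalIntegral.integral_add hg1 hg2, intervalIntegral.integral_div,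
          intervalIntegral.integral_div]

end Vale.Agent.P122.H567
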