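import Vale.Agent.P122.FI.Defs
import Vale.Agent.P122.H567.VdC

/-!
# [FI-B] : decay of the Fourier transform of a smooth density on a graph

`∃ r > 0` with `∂₁₁ h ≥ 1/2` on `sq r`, and for every smooth `ψ` supported in `sq r`
`|∫ ψ(y) e(x·(y, h y)) dy| ≤ C (1 + |x|)^(-1/2)`.
-/

namespace Vale.Agent.P122.H567

open MeasureTheory Set intervalIntegral Complex Vale.Agent.P122.FI
open scoped ContDiff

variable {F : Type*} [NormedAddCommGroup F] [NormedSpace ℝ F]

/-- partial derivatives. -/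
noncomputable def D1 (g : ℝ × ℝ → F) (y : ℝ × ℝ) : F := fderiv ℝ g y (1, 0)
noncomputable def D2 (g : ℝ × ℝ → F) (y : ℝ × ℝ) : F := fderiv ℝ g y (0, 1)

lemma contDiff_D1 {g : ℝ × ℝ → F} (hg : ContDiff ℝ ∞ g) : ContDiff ℝ ∞ (D1 g) := by
  have h : ContDiff ℝ ∞ (fderiv ℝ g) := hg.fderiv_right (m := ∞) (by simp)
  exact h.clm_apply contDiff_const

lemma contDiff_D2 {g : ℝ × ℝ → F} (hg : ContDiff ℝ ∞ g) : ContDiff ℝ ∞ (D2 g) := by
  have h : ContDiff ℝ ∞ (fderiv ℝ g) := hg.fderiv_right (m := ∞) (by simp)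
  exact h.clm_apply contDiff_const

lemma hasDerivAt_fst {g : ℝ × ℝ → F} (hg : ContDiff ℝ ∞ g) (b t : ℝ) :
    HasDerivAt (fun s => g (s, b)) (D1 g (t, b)) t := by
  have h1 : HasFDerivAt g (fderiv ℝ g (t, b)) (t, b) :=
    (hg.differentiable (by simp) (t, b)).hasFDerivAt
  have h2 : HasDerivAt (fun s : ℝ => ((s, b) : ℝ × ℝ)) ((1, 0) : ℝ × ℝ) t :=
    (hasDerivAt_id t).prodMk (hasDerivAt_const t b)
  exact h1.comp_hasDerivAt t h2

lemma hasDerivAt_snd {g : ℝ × ℝ → F} (hg : ContDiff ℝ ∞ g) (a t : ℝ) :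
    HasDerivAt (fun s => g (a, s)) (D2 g (a, t)) t := by
  have h1 : HasFDerivAt g (fderiv ℝ g (a, t)) (a, t) :=
    (hg.differentiable (by simp) (a, t)).hasFDerivAt
  have h2 : HasDerivAt (fun s : ℝ => ((a, s) : ℝ × ℝ)) ((0, 1) : ℝ × ℝ) t :=
    (hasDerivAt_const t a).prodMk (hasDerivAt_id t)
  exact h1.comp_hasDerivAt t h2

/-- a `C²` function with `|k t| ≤ C |t|³` near `0` has `k''(0) = 0`. -/
lemma second_zero {k k' k'' : ℝ → ℝ} {C : ℝ} (h1 : ∀ t, HasDerivAt k (k' t) t)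
    (h2 : ∀ t, HasDerivAt k' (k'' t) t) (hc : Continuous k'')
    (hb : ∀ t, |t| ≤ 1 → |k t| ≤ C * |t| ^ 3) : k'' 0 = 0 := by
  have hC : 0 ≤ C := by
    have := hb 1 (by norm_num)
    simp only [abs_one, one_pow, mul_one] at this
    exact (abs_nonneg _).trans this
  have hk0 : k 0 = 0 := by
    have := hb 0 (by norm_num)
    simp only [abs_zero, ne_eq, OfNat.ofNat_ne_zero, not_false_eq_true, zero_pow, mul_zero,
      abs_nonpos_iff] at this
    exact this
  -- suppose not: `k''` has a sign near `0`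
  by_contra hne
  -- WLOG via the two signs
  have main : ∀ (k k' k'' : ℝ → ℝ), (∀ t, HasDerivAt k (k' t) t) →
      (∀ t, HasDerivAt k' (k'' t) t) → Continuous k'' →
      (∀ t, |t| ≤ 1 → |k t| ≤ C * |t| ^ 3) → k 0 = 0 → 0 < k'' 0 → False := by
    intro k k' k'' h1 h2 hc hb hk0 hpos
    set m := k'' 0 / 2 with hm
    have hmpos : 0 < m := by positivity
    have hev : ∀ᶠ t in nhds (0 : ℝ), m < k'' t :=
      hc.continuousAt.eventually (lt_mem_nhds (by rw [hm]; linarith))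
    obtain ⟨δ, hδ, hball⟩ := Metric.eventually_nhds_iff.mp hev
    -- `k(t) + k(-t) ≥ m t²`
    have hconv : ∀ t, 0 < t → t < δ → m * t ^ 2 ≤ k t + k (-t) := by
      intro t ht htd
      -- g(s) = k(s) + k(-s) - m s² is convex-like : g' ≥ 0 on [0, t]
      have hg'' : MonotoneOn (fun s => k' s - k' (-s) - 2 * m * s) (Icc 0 t) := by
        refine monotoneOn_of_deriv_nonneg (convex_Icc 0 t) ?_ ?_ ?_
        · have hck' : Continuous k' := continuous_iff_continuousAt.mpr fun t => (h2 t).continuousAt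
          fun_prop
        · intro s _
          have hd : HasDerivAt (fun s => k' s - k' (-s) - 2 * m * s)
              (k'' s - k'' (-s) * (-1) - 2 * m * 1) s :=
            ((h2 s).sub ((h2 (-s)).comp s (hasDerivAt_neg s))).sub
              ((hasDerivAt_id s).const_mul (2 * m))
          exact hd.differentiableAt.differentiableWithinAt
        · intro s hs
          rw [interior_Icc] at hs
          have hd : HasDerivAt (fun s => k' s - k' (-s) - 2 * m * s)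
              (k'' s - k'' (-s) * (-1) - 2 * m * 1) s :=
            ((h2 s).sub ((h2 (-s)).comp s (hasDerivAt_neg s))).sub
              ((hasDerivAt_id s).const_mul (2 * m))
          rw [hd.deriv]
          have q1 := hball (y := s) (by rw [Real.dist_eq, sub_zero, abs_lt]; constructor <;> linarith [hs.1, hs.2])
          have q2 := hball (y := -s) (by rw [Real.dist_eq, sub_zero, abs_lt]; constructor <;> linarith [hs.1, hs.2])
          linarith
      have hg' : MonotoneOn (fun s => k s + k (-s) - m * s ^ 2) (Icc 0 t) := by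
        refine monotoneOn_of_deriv_nonneg (convex_Icc 0 t) ?_ ?_ ?_
        · have hck : Continuous k := continuous_iff_continuousAt.mpr fun t => (h1 t).continuousAt
          fun_prop
        · intro s _
          have hd : HasDerivAt (fun s => k s + k (-s) - m * s ^ 2)
              (k' s + k' (-s) * (-1) - m * (2 * s)) s := by
            have h3 := ((h1 s).add ((h1 (-s)).comp s (hasDerivAt_neg s))).sub
              (((hasDerivAt_pow 2 s)).const_mul m)
            have e : m * (((2 : ℕ) : ℝ) * s ^ (2 - 1)) = m * (2 * s) := by norm_num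
            rw [e] at h3
            exact h3
          exact hd.differentiableAt.differentiableWithinAt
        · intro s hs
          rw [interior_Icc] at hs
          have hd : HasDerivAt (fun s => k s + k (-s) - m * s ^ 2)
              (k' s + k' (-s) * (-1) - m * (2 * s)) s := by
            have h3 := ((h1 s).add ((h1 (-s)).comp s (hasDerivAt_neg s))).sub
              (((hasDerivAt_pow 2 s)).const_mul m)
            have e : m * (((2 : ℕ) : ℝ) * s ^ (2 - 1)) = m * (2 * s) := by norm_num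
            rw [e] at h3
            exact h3
          rw [hd.deriv]
          have := hg'' (⟨le_refl _, ht.le⟩ : (0 : ℝ) ∈ Icc 0 t) ⟨hs.1.le, hs.2.le⟩ hs.1.le
          simp only [neg_zero, sub_self, mul_zero] at this
          linarith
      have := hg' (⟨le_refl _, ht.le⟩ : (0 : ℝ) ∈ Icc 0 t) ⟨ht.le, le_refl _⟩ ht.le
      simp only [neg_zero, hk0, add_zero, ne_eq, OfNat.ofNat_ne_zero, not_false_eq_true, zero_pow,
        mul_zero, sub_self] at this
      linarith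
    -- choose `t` small
    obtain ⟨t, ht0, htδ, ht1, htC⟩ : ∃ t, 0 < t ∧ t < δ ∧ t ≤ 1 ∧ 2 * C * t < m := by
      refine ⟨min (min (δ / 2) 1) (m / (2 * (2 * C + 1))), by positivity, ?_, ?_, ?_⟩
      · exact ((min_le_left _ _).trans (min_le_left _ _)).trans_lt (by linarith)
      · exact (min_le_left _ _).trans (min_le_right _ _)
      · have h3 : min (min (δ / 2) 1) (m / (2 * (2 * C + 1))) ≤ m / (2 * (2 * C + 1)) :=
          min_le_right _ _
        calc 2 * C * min (min (δ / 2) 1) (m / (2 * (2 * C + 1)))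
            ≤ 2 * C * (m / (2 * (2 * C + 1))) := by gcongr
          _ ≤ (2 * C + 1) * (m / (2 * (2 * C + 1))) := by
              have : 0 ≤ m / (2 * (2 * C + 1)) := by positivity
              nlinarith
          _ = m / 2 := by field_simp
          _ < m := by linarith
    have e1 := hconv t ht0 htδ
    have e2 := hb t (by rw [abs_of_pos ht0]; exact ht1)
    have e3 := hb (-t) (by rw [abs_neg, abs_of_pos ht0]; exact ht1)
    rw [abs_neg] at e3
    rw [abs_of_pos ht0] at e2 e3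
    have e4 := (le_abs_self (k t)).trans e2
    have e5 := (le_abs_self (k (-t))).trans e3
    have : m * t ^ 2 ≤ 2 * C * t * t ^ 2 := by nlinarith
    have ht2 : 0 < t ^ 2 := by positivity
    have := le_of_mul_le_mul_right this ht2
    linarith
  rcases lt_or_gt_of_ne hne with h | h
  · refine main (fun t => -k t) (fun t => -k' t) (fun t => -k'' t) (fun t => (h1 t).neg)
      (fun t => (h2 t).neg) hc.neg (fun t ht => by rw [abs_neg]; exact hb t ht) (by simp [hk0])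
      (by linarith)
  · exact main k k' k'' h1 h2 hc hb hk0 h

/-- `∂₁₁ h (0) = 1`. -/
lemma D11_zero {h : ℝ × ℝ → ℝ} (hP : Phase h) : D1 (D1 h) (0, 0) = 1 := by
  obtain ⟨C, hC⟩ := hP.cubic
  have h1 := fun t => hasDerivAt_fst hP.smooth 0 t
  have h2 := fun t => hasDerivAt_fst (contDiff_D1 hP.smooth) 0 t
  have hc : Continuous fun t : ℝ => D1 (D1 h) (t, 0) :=
    (contDiff_D1 (contDiff_D1 hP.smooth)).continuous.comp (by fun_prop)
  have key := second_zero (k := fun t => h (t, 0) - t ^ 2 / 2) (k' := fun t => D1 h (t, 0) - t)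
    (k'' := fun t => D1 (D1 h) (t, 0) - 1) (C := C)
    (fun t => by
      have h3 := (h1 t).sub ((hasDerivAt_pow 2 t).div_const 2)
      have e : ((2 : ℕ) : ℝ) * t ^ (2 - 1) / 2 = t := by norm_num
      rw [e] at h3
      exact h3)
    (fun t => (h2 t).sub (hasDerivAt_id t)) (hc.sub continuous_const)
    (fun t ht => by
      have := hC (t, 0) ⟨⟨(abs_le.mp ht).1, (abs_le.mp ht).2⟩, by constructor <;> norm_num⟩
      simpa using this)
  have key' : D1 (D1 h) ((0 : ℝ), (0 : ℝ)) - 1 = 0 := key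
  linarith

/-- the radius. -/
lemma exists_radius {h : ℝ × ℝ → ℝ} (hP : Phase h) :
    ∃ r : ℝ, 0 < r ∧ r ≤ 1 ∧ ∀ y ∈ sq r, 1 / 2 ≤ D1 (D1 h) y := by
  have hc : Continuous (D1 (D1 h)) := (contDiff_D1 (contDiff_D1 hP.smooth)).continuous
  have hev : ∀ᶠ y in nhds ((0, 0) : ℝ × ℝ), 1 / 2 < D1 (D1 h) y :=
    hc.continuousAt.eventually (lt_mem_nhds (by rw [D11_zero hP]; norm_num))
  obtain ⟨δ, hδ, hball⟩ := Metric.eventually_nhds_iff.mp hev
  refine ⟨min (δ / 2) 1, by positivity, min_le_right _ _, fun y hy => (hball ?_).le⟩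
  have hm : min (δ / 2) 1 < δ := (min_le_left _ _).trans_lt (by linarith)
  rw [Prod.dist_eq, max_lt_iff, Real.dist_eq, Real.dist_eq, sub_zero, sub_zero]
  exact ⟨(abs_le.mpr ⟨hy.1.1, hy.1.2⟩).trans_lt hm, (abs_le.mpr ⟨hy.2.1, hy.2.2⟩).trans_lt hm⟩

lemma isCompact_sq (r : ℝ) : IsCompact (sq r) := isCompact_Icc.prod isCompact_Icc

omit [NormedSpace ℝ F] in
lemma exists_bound {g : ℝ × ℝ → F} (hg : Continuous g) (r : ℝ) :
    ∃ M : ℝ, 0 ≤ M ∧ ∀ y ∈ sq r, ‖g y‖ ≤ M := by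
  obtain ⟨M, hM⟩ := (isCompact_sq r).exists_bound_of_continuousOn hg.continuousOn
  exact ⟨max M 0, le_max_right _ _, fun y hy => (hM y hy).trans (le_max_left _ _)⟩

lemma zero_fst {ψ : ℝ × ℝ → ℂ} {r : ℝ} (hc : Continuous ψ) (hs : ∀ y, y ∉ sq r → ψ y = 0)
    (b : ℝ) : ψ (r, b) = 0 ∧ ψ (-r, b) = 0 := by
  constructor
  · have hcl : IsClosed {t : ℝ | ψ (t, b) = 0} := isClosed_eq (by fun_prop) continuous_const
    have hsub : Ioi r ⊆ {t : ℝ | ψ (t, b) = 0} := fun t ht => hs _ fun h => absurd h.1.2 (not_le.mpr ht)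
    have := closure_minimal hsub hcl
    rw [closure_Ioi] at this
    exact this (Set.mem_Ici.mpr le_rfl)
  · have hcl : IsClosed {t : ℝ | ψ (t, b) = 0} := isClosed_eq (by fun_prop) continuous_const
    have hsub : Iio (-r) ⊆ {t : ℝ | ψ (t, b) = 0} := fun t ht => hs _ fun h => absurd h.1.1 (not_le.mpr ht)
    have := closure_minimal hsub hcl
    rw [closure_Iio] at this
    exact this (Set.mem_Iic.mpr le_rfl)

lemma zero_snd {ψ : ℝ × ℝ → ℂ} {r : ℝ} (hc : Continuous ψ) (hs : ∀ y, y ∉ sq r → ψ y = 0)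
    (b : ℝ) : ψ (b, r) = 0 ∧ ψ (b, -r) = 0 := by
  constructor
  · have hcl : IsClosed {t : ℝ | ψ (b, t) = 0} := isClosed_eq (by fun_prop) continuous_const
    have hsub : Ioi r ⊆ {t : ℝ | ψ (b, t) = 0} := fun t ht => hs _ fun h => absurd h.2.2 (not_le.mpr ht)
    have := closure_minimal hsub hcl
    rw [closure_Ioi] at this
    exact this (Set.mem_Ici.mpr le_rfl)
  · have hcl : IsClosed {t : ℝ | ψ (b, t) = 0} := isClosed_eq (by fun_prop) continuous_const
    have hsub : Iio (-r) ⊆ {t : ℝ | ψ (b, t) = 0} := fun t ht => hs _ fun h => absurd h.2.1 (not_le.mpr ht)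
    have := closure_minimal hsub hcl
    rw [closure_Iio] at this
    exact this (Set.mem_Iic.mpr le_rfl)

/-- the phase. -/
noncomputable def ph (h : ℝ × ℝ → ℝ) (x : E3) (y : ℝ × ℝ) : ℝ :=
  2 * Real.pi * (x 0 * y.1 + x 1 * y.2 + x 2 * h y)

lemma Ext_eq (h : ℝ × ℝ → ℝ) (ψ : ℝ × ℝ → ℂ) (x : E3) :
    FI.Ext h ψ x = ∫ y : ℝ × ℝ, cexp (I * (ph h x y : ℂ)) * ψ y := by
  unfold FI.Ext ph
  refine integral_congr_ae (Filter.Eventually.of_forall fun y => ?_)
  simp only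
  rw [mul_comm]
  congr 2
  push_cast
  ring

lemma ph_fst {h : ℝ × ℝ → ℝ} (hs : ContDiff ℝ ∞ h) (x : E3) (b t : ℝ) :
    HasDerivAt (fun s => ph h x (s, b)) (2 * Real.pi * (x 0 + x 2 * D1 h (t, b))) t := by
  unfold ph
  have h1 := ((((hasDerivAt_id t).const_mul (x 0)).add_const (x 1 * b)).add
    ((hasDerivAt_fst hs b t).const_mul (x 2))).const_mul (2 * Real.pi)
  rw [mul_one] at h1
  exact h1

lemma ph_snd {h : ℝ × ℝ → ℝ} (hs : ContDiff ℝ ∞ h) (x : E3) (a t : ℝ) :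
    HasDerivAt (fun s => ph h x (a, s)) (2 * Real.pi * (x 1 + x 2 * D2 h (a, t))) t := by
  unfold ph
  have h1 := ((((hasDerivAt_id t).const_mul (x 1)).const_add (x 0 * a)).add
    ((hasDerivAt_snd hs a t).const_mul (x 2))).const_mul (2 * Real.pi)
  rw [mul_one] at h1
  exact h1

lemma ph_fst' {h : ℝ × ℝ → ℝ} (hs : ContDiff ℝ ∞ h) (x : E3) (b t : ℝ) :
    HasDerivAt (fun s => 2 * Real.pi * (x 0 + x 2 * D1 h (s, b)))
      (2 * Real.pi * (x 2 * D1 (D1 h) (t, b))) t :=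
  (((hasDerivAt_fst (contDiff_D1 hs) b t).const_mul (x 2)).const_add (x 0)).const_mul _

lemma ph_snd' {h : ℝ × ℝ → ℝ} (hs : ContDiff ℝ ∞ h) (x : E3) (a t : ℝ) :
    HasDerivAt (fun s => 2 * Real.pi * (x 1 + x 2 * D2 h (a, s)))
      (2 * Real.pi * (x 2 * D2 (D2 h) (a, t))) t :=
  (((hasDerivAt_snd (contDiff_D2 hs) a t).const_mul (x 2)).const_add (x 1)).const_mul _

/-- bound of an integral of a norm over `[-r,r]`. -/
lemma int_le {g : ℝ → ℝ} {r B : ℝ} (hr : 0 ≤ r) (hg : Continuous g) (hb : ∀ t ∈ Icc (-r) r, g t ≤ B) :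
    ∫ t in (-r)..r, g t ≤ 2 * r * B := by
  calc ∫ t in (-r)..r, g t ≤ ∫ t in (-r)..r, B := by
        refine intervalIntegral.integral_mono_on (by linarith) (hg.intervalIntegrable _ _)
          intervalIntegrable_const ?_
        exact hb
    _ = 2 * r * B := by rw [intervalIntegral.integral_const, smul_eq_mul]; ring

section inner

variable {h : ℝ × ℝ → ℝ} {ψ : ℝ × ℝ → ℂ} {r M : ℝ}

/-- the inner integral, second derivative. -/
lemma inner_vdc (hs : ContDiff ℝ ∞ h) (hr : 0 < r) (hD : ∀ y ∈ sq r, 1 / 2 ≤ D1 (D1 h) y)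
    (hψ : ContDiff ℝ ∞ ψ) (hsu : ∀ y, y ∉ sq r → ψ y = 0)
    (hM : ∀ y ∈ sq r, ‖D1 ψ y‖ ≤ M) (x : E3) (hx : x 2 ≠ 0) (b : ℝ) (hb : b ∈ Icc (-r) r) :
    ‖∫ t : ℝ, cexp (I * (ph h x (t, b) : ℂ)) * ψ (t, b)‖
      ≤ 8 / Real.sqrt (Real.pi * |x 2|) * (2 * r * M) := by
  have hpi := Real.pi_pos
  have hlam : 0 < Real.pi * |x 2| := mul_pos hpi (abs_pos.mpr hx)
  have hc2 : Continuous fun t : ℝ => 2 * Real.pi * (x 2 * D1 (D1 h) (t, b)) := by
    have := (contDiff_D1 (contDiff_D1 hs)).continuous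
    fun_prop
  have huc : Continuous fun t : ℝ => D1 ψ (t, b) := by
    have := (contDiff_D1 hψ).continuous
    fun_prop
  have hmem : ∀ t ∈ Icc (-r) r, (t, b) ∈ sq r := fun t ht => ⟨ht, hb⟩
  have hz := zero_fst hψ.continuous hsu b
  have hI : ∫ t in (-r)..r, ‖D1 ψ (t, b)‖ ≤ 2 * r * M :=
    int_le hr.le huc.norm fun t ht => hM _ (hmem t ht)
  have hsupp : ∀ t, t ∉ Icc (-r) r → ψ (t, b) = 0 := fun t ht => hsu _ fun h => ht h.1
  refine le_trans ?_ (mul_le_mul_of_nonneg_left hI (by positivity))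
  rcases lt_or_gt_of_ne hx with hneg | hpos
  · refine vdc_amp_neg (Φ := fun t => ph h x (t, b)) (by linarith) hlam
      (fun t => ph_fst hs x b t) (fun t => ph_fst' hs x b t) hc2 ?_
      (fun t => hasDerivAt_fst hψ b t) huc hz.1 hsupp
    intro t ht
    have := hD _ (hmem t ht)
    rw [abs_of_neg hneg]
    nlinarith [mul_nonneg hpi.le (mul_nonneg (neg_nonneg.mpr hneg.le) (sub_nonneg.mpr this))]
  · refine vdc_amp (Φ := fun t => ph h x (t, b)) (by linarith) hlam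
      (fun t => ph_fst hs x b t) (fun t => ph_fst' hs x b t) hc2 ?_
      (fun t => hasDerivAt_fst hψ b t) huc hz.1 hsupp
    intro t ht
    have := hD _ (hmem t ht)
    rw [abs_of_pos hpos]
    nlinarith [mul_nonneg hpi.le (mul_nonneg hpos.le (sub_nonneg.mpr this))]

/-- the inner integral in `y₁`, non-stationary. -/
lemma inner_ns1 (hs : ContDiff ℝ ∞ h) (hr : 0 < r) (hM0 : 0 ≤ M)
    (hh1 : ∀ y ∈ sq r, ‖D1 h y‖ ≤ M) (hh2 : ∀ y ∈ sq r, ‖D1 (D1 h) y‖ ≤ M)
    (hψ : ContDiff ℝ ∞ ψ) (hsu : ∀ y, y ∉ sq r → ψ y = 0)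
    (hp0 : ∀ y ∈ sq r, ‖ψ y‖ ≤ M) (hp1 : ∀ y ∈ sq r, ‖D1 ψ y‖ ≤ M)
    (x : E3) (hx : x 0 ≠ 0) (hsm : |x 2| * (2 * M + 1) ≤ |x 0|) (b : ℝ) (hb : b ∈ Icc (-r) r) :
    ‖∫ t : ℝ, cexp (I * (ph h x (t, b) : ℂ)) * ψ (t, b)‖ ≤ 2 * r * (M + M) / |x 0| := by
  have hpi := Real.pi_pos
  have hpi3 := Real.pi_gt_three
  have hx0 : 0 < |x 0| := abs_pos.mpr hx
  have hc2 : Continuous fun t : ℝ => 2 * Real.pi * (x 2 * D1 (D1 h) (t, b)) := by
    have := (contDiff_D1 (contDiff_D1 hs)).continuous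
    fun_prop
  have huc : Continuous fun t : ℝ => D1 ψ (t, b) := by
    have := (contDiff_D1 hψ).continuous
    fun_prop
  have huc0 : Continuous fun t : ℝ => ψ (t, b) := by
    have := hψ.continuous
    fun_prop
  have hmem : ∀ t ∈ Icc (-r) r, (t, b) ∈ sq r := fun t ht => ⟨ht, hb⟩
  have hz := zero_fst hψ.continuous hsu b
  have hsupp : ∀ t, t ∉ Icc (-r) r → ψ (t, b) = 0 := fun t ht => hsu _ fun h => ht h.1
  have key := nonstat (Φ := fun t => ph h x (t, b)) (μ := Real.pi * |x 0|) (a := -r) (b := r)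
    (by linarith) (by positivity) (fun t => ph_fst hs x b t) (fun t => ph_fst' hs x b t) hc2
    (by
      intro t ht
      have h1 := hh1 _ (hmem t ht)
      rw [Real.norm_eq_abs] at h1
      have h2 : |x 2 * D1 h (t, b)| ≤ |x 0| / 2 := by
        rw [abs_mul]
        have : |x 2| * |D1 h (t, b)| ≤ |x 2| * M := mul_le_mul_of_nonneg_left h1 (abs_nonneg _)
        nlinarith [abs_nonneg (x 2)]
      have h3 : |x 0| - |x 2 * D1 h (t, b)| ≤ |x 0 + x 2 * D1 h (t, b)| := by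
        have := abs_sub_abs_le_abs_sub (x 0) (-(x 2 * D1 h (t, b)))
        rw [abs_neg, sub_neg_eq_add] at this
        exact this
      rw [abs_mul, abs_of_pos (by positivity : (0:ℝ) < 2 * Real.pi)]
      nlinarith)
    (fun t => hasDerivAt_fst hψ b t) huc hz.2 hz.1 hsupp
  refine key.trans ?_
  have i1 : ∫ t in (-r)..r, ‖D1 ψ (t, b)‖ ≤ 2 * r * M :=
    int_le hr.le huc.norm fun t ht => hp1 _ (hmem t ht)
  have i2 : ∫ t in (-r)..r, ‖ψ (t, b)‖ * |2 * Real.pi * (x 2 * D1 (D1 h) (t, b))|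
      ≤ 2 * r * (M * (Real.pi * |x 0|)) := by
    refine int_le hr.le (huc0.norm.mul hc2.abs) fun t ht => ?_
    have h1 := hh2 _ (hmem t ht)
    rw [Real.norm_eq_abs] at h1
    refine mul_le_mul (hp0 _ (hmem t ht)) ?_ (abs_nonneg _) hM0
    rw [abs_mul, abs_of_pos (by positivity : (0:ℝ) < 2 * Real.pi), abs_mul]
    have : |x 2| * |D1 (D1 h) (t, b)| ≤ |x 2| * M := mul_le_mul_of_nonneg_left h1 (abs_nonneg _)
    nlinarith [abs_nonneg (x 2)]
  calc (∫ t in (-r)..r, ‖D1 ψ (t, b)‖) / (Real.pi * |x 0|)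
        + (∫ t in (-r)..r, ‖ψ (t, b)‖ * |2 * Real.pi * (x 2 * D1 (D1 h) (t, b))|)
          / (Real.pi * |x 0|) ^ 2
      ≤ (2 * r * M) / (Real.pi * |x 0|) + (2 * r * (M * (Real.pi * |x 0|))) / (Real.pi * |x 0|) ^ 2 := by
        gcongr
    _ = (2 * r * (M + M)) / (Real.pi * |x 0|) := by field_simp
    _ ≤ 2 * r * (M + M) / |x 0| := by
        refine div_le_div_of_nonneg_left (by positivity) hx0 ?_
        nlinarith

/-- the inner integral in `y₂`, non-stationary. -/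
lemma inner_ns2 (hs : ContDiff ℝ ∞ h) (hr : 0 < r) (hM0 : 0 ≤ M)
    (hh1 : ∀ y ∈ sq r, ‖D2 h y‖ ≤ M) (hh2 : ∀ y ∈ sq r, ‖D2 (D2 h) y‖ ≤ M)
    (hψ : ContDiff ℝ ∞ ψ) (hsu : ∀ y, y ∉ sq r → ψ y = 0)
    (hp0 : ∀ y ∈ sq r, ‖ψ y‖ ≤ M) (hp1 : ∀ y ∈ sq r, ‖D2 ψ y‖ ≤ M)
    (x : E3) (hx : x 1 ≠ 0) (hsm : |x 2| * (2 * M + 1) ≤ |x 1|) (a : ℝ) (ha : a ∈ Icc (-r) r) :
    ‖∫ t : ℝ, cexp (I * (ph h x (a, t) : ℂ)) * ψ (a, t)‖ ≤ 2 * r * (M + M) / |x 1| := by
  have hpi := Real.pi_pos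
  have hpi3 := Real.pi_gt_three
  have hx0 : 0 < |x 1| := abs_pos.mpr hx
  have hc2 : Continuous fun t : ℝ => 2 * Real.pi * (x 2 * D2 (D2 h) (a, t)) := by
    have := (contDiff_D2 (contDiff_D2 hs)).continuous
    fun_prop
  have huc : Continuous fun t : ℝ => D2 ψ (a, t) := by
    have := (contDiff_D2 hψ).continuous
    fun_prop
  have huc0 : Continuous fun t : ℝ => ψ (a, t) := by
    have := hψ.continuous
    fun_prop
  have hmem : ∀ t ∈ Icc (-r) r, (a, t) ∈ sq r := fun t ht => ⟨ha, ht⟩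
  have hz := zero_snd hψ.continuous hsu a
  have hsupp : ∀ t, t ∉ Icc (-r) r → ψ (a, t) = 0 := fun t ht => hsu _ fun h => ht h.2
  have key := nonstat (Φ := fun t => ph h x (a, t)) (μ := Real.pi * |x 1|) (a := -r) (b := r)
    (by linarith) (by positivity) (fun t => ph_snd hs x a t) (fun t => ph_snd' hs x a t) hc2
    (by
      intro t ht
      have h1 := hh1 _ (hmem t ht)
      rw [Real.norm_eq_abs] at h1
      have h2 : |x 2 * D2 h (a, t)| ≤ |x 1| / 2 := by
        rw [abs_mul]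
        have : |x 2| * |D2 h (a, t)| ≤ |x 2| * M := mul_le_mul_of_nonneg_left h1 (abs_nonneg _)
        nlinarith [abs_nonneg (x 2)]
      have h3 : |x 1| - |x 2 * D2 h (a, t)| ≤ |x 1 + x 2 * D2 h (a, t)| := by
        have := abs_sub_abs_le_abs_sub (x 1) (-(x 2 * D2 h (a, t)))
        rw [abs_neg, sub_neg_eq_add] at this
        exact this
      rw [abs_mul, abs_of_pos (by positivity : (0:ℝ) < 2 * Real.pi)]
      nlinarith)
    (fun t => hasDerivAt_snd hψ a t) huc hz.2 hz.1 hsupp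
  refine key.trans ?_
  have i1 : ∫ t in (-r)..r, ‖D2 ψ (a, t)‖ ≤ 2 * r * M :=
    int_le hr.le huc.norm fun t ht => hp1 _ (hmem t ht)
  have i2 : ∫ t in (-r)..r, ‖ψ (a, t)‖ * |2 * Real.pi * (x 2 * D2 (D2 h) (a, t))|
      ≤ 2 * r * (M * (Real.pi * |x 1|)) := by
    refine int_le hr.le (huc0.norm.mul hc2.abs) fun t ht => ?_
    have h1 := hh2 _ (hmem t ht)
    rw [Real.norm_eq_abs] at h1
    refine mul_le_mul (hp0 _ (hmem t ht)) ?_ (abs_nonneg _) hM0
    rw [abs_mul, abs_of_pos (by positivity : (0:ℝ) < 2 * Real.pi), abs_mul]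
    have : |x 2| * |D2 (D2 h) (a, t)| ≤ |x 2| * M := mul_le_mul_of_nonneg_left h1 (abs_nonneg _)
    nlinarith [abs_nonneg (x 2)]
  calc (∫ t in (-r)..r, ‖D2 ψ (a, t)‖) / (Real.pi * |x 1|)
        + (∫ t in (-r)..r, ‖ψ (a, t)‖ * |2 * Real.pi * (x 2 * D2 (D2 h) (a, t))|)
          / (Real.pi * |x 1|) ^ 2
      ≤ (2 * r * M) / (Real.pi * |x 1|) + (2 * r * (M * (Real.pi * |x 1|))) / (Real.pi * |x 1|) ^ 2 := by
        gcongr
    _ = (2 * r * (M + M)) / (Real.pi * |x 1|) := by field_simp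
    _ ≤ 2 * r * (M + M) / |x 1| := by
        refine div_le_div_of_nonneg_left (by positivity) hx0 ?_
        nlinarith

end inner

/-- integral over one coordinate of a function supported in `[-r, r]`. -/
lemma outer_le {G : ℝ → ℂ} {r B : ℝ} (hr : 0 < r) (hz : ∀ b, b ∉ Icc (-r) r → G b = 0)
    (hb : ∀ b ∈ Icc (-r) r, ‖G b‖ ≤ B) : ‖∫ b, G b‖ ≤ 2 * r * B := by
  rw [← setIntegral_eq_integral_of_forall_compl_eq_zero (s := Icc (-r) r) hz]
  have h := norm_setIntegral_le_of_norm_le_const (μ := volume) (s := Icc (-r) r) (f := G) (C := B)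
    (by rw [Real.volume_Icc]; exact ENNReal.ofReal_lt_top) hb
  refine h.trans (le_of_eq ?_)
  rw [Measure.real, Real.volume_Icc, ENNReal.toReal_ofReal (by linarith)]
  ring

lemma integrable_osc {h : ℝ × ℝ → ℝ} {ψ : ℝ × ℝ → ℂ} {r : ℝ} (hs : ContDiff ℝ ∞ h)
    (hψ : ContDiff ℝ ∞ ψ) (hsu : ∀ y, y ∉ sq r → ψ y = 0) (x : E3) :
    Integrable (fun y : ℝ × ℝ => cexp (I * (ph h x y : ℂ)) * ψ y) := by
  have h1 : HasCompactSupport ψ := HasCompactSupport.intro (isCompact_sq r) hsu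
  have h2 := hs.continuous
  have h3 := hψ.continuous
  have hph : Continuous fun y => (ph h x y : ℂ) := by
    unfold ph
    fun_prop
  have hc : Continuous fun y : ℝ × ℝ => cexp (I * (ph h x y : ℂ)) * ψ y := by fun_prop
  exact hc.integrable_of_hasCompactSupport h1.mul_left

lemma norm_E3_le (x : E3) : ‖x‖ ≤ |x 0| + |x 1| + |x 2| := by
  rw [EuclideanSpace.norm_eq, Fin.sum_univ_three]
  refine Real.sqrt_le_iff.mpr ⟨by positivity, ?_⟩
  simp only [Real.norm_eq_abs]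
  nlinarith [abs_nonneg (x 0), abs_nonneg (x 1), abs_nonneg (x 2),
    mul_nonneg (abs_nonneg (x 0)) (abs_nonneg (x 1)), mul_nonneg (abs_nonneg (x 0)) (abs_nonneg (x 2)),
    mul_nonneg (abs_nonneg (x 1)) (abs_nonneg (x 2))]

/-- **[FI-B]** decay. -/
theorem decay {h : ℝ × ℝ → ℝ} (hs : ContDiff ℝ ∞ h) {r : ℝ} (hr : 0 < r)
    (hD : ∀ y ∈ sq r, 1 / 2 ≤ D1 (D1 h) y) {ψ : ℝ × ℝ → ℂ} (hψ : ContDiff ℝ ∞ ψ)
    (hsu : ∀ y, y ∉ sq r → ψ y = 0) :
    ∃ C : ℝ, 0 ≤ C ∧ ∀ x : E3, ‖FI.Ext h ψ x‖ ≤ C / Real.sqrt (1 + ‖x‖) := by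
  obtain ⟨M1, hM1, b1⟩ := exists_bound (contDiff_D1 hs).continuous r
  obtain ⟨M2, hM2, b2⟩ := exists_bound (contDiff_D2 hs).continuous r
  obtain ⟨M3, hM3, b3⟩ := exists_bound (contDiff_D1 (contDiff_D1 hs)).continuous r
  obtain ⟨M4, hM4, b4⟩ := exists_bound (contDiff_D2 (contDiff_D2 hs)).continuous r
  obtain ⟨M5, hM5, b5⟩ := exists_bound hψ.continuous r
  obtain ⟨M6, hM6, b6⟩ := exists_bound (contDiff_D1 hψ).continuous r
  obtain ⟨M7, hM7, b7⟩ := exists_bound (contDiff_D2 hψ).continuous r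
  set M := M1 + M2 + M3 + M4 + M5 + M6 + M7 with hM
  have hM0 : 0 ≤ M := by positivity
  have c1 : ∀ y ∈ sq r, ‖D1 h y‖ ≤ M := fun y hy => (b1 y hy).trans (by rw [hM]; linarith)
  have c2 : ∀ y ∈ sq r, ‖D2 h y‖ ≤ M := fun y hy => (b2 y hy).trans (by rw [hM]; linarith)
  have c3 : ∀ y ∈ sq r, ‖D1 (D1 h) y‖ ≤ M := fun y hy => (b3 y hy).trans (by rw [hM]; linarith)
  have c4 : ∀ y ∈ sq r, ‖D2 (D2 h) y‖ ≤ M := fun y hy => (b4 y hy).trans (by rw [hM]; linarith)
  have c5 : ∀ y ∈ sq r, ‖ψ y‖ ≤ M := fun y hy => (b5 y hy).trans (by rw [hM]; linarith)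
  have c6 : ∀ y ∈ sq r, ‖D1 ψ y‖ ≤ M := fun y hy => (b6 y hy).trans (by rw [hM]; linarith)
  have c7 : ∀ y ∈ sq r, ‖D2 ψ y‖ ≤ M := fun y hy => (b7 y hy).trans (by rw [hM]; linarith)
  set C1 := 32 * r ^ 2 * M * Real.sqrt (2 * (4 * M + 3)) with hC1
  have hC10 : 0 ≤ C1 := by positivity
  refine ⟨C1 + 48 * r ^ 2 * M, by positivity, fun x => ?_⟩
  have hsq0 : 0 < Real.sqrt (1 + ‖x‖) := Real.sqrt_pos.mpr (by positivity)
  have hint := integrable_osc hs hψ hsu x
  have hint' : Integrable (fun y : ℝ × ℝ => cexp (I * (ph h x y : ℂ)) * ψ y)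
      ((volume : Measure ℝ).prod volume) := hint
  rw [le_div_iff₀ hsq0, Ext_eq]
  -- the two iterated forms
  have it1 : ∫ y : ℝ × ℝ, cexp (I * (ph h x y : ℂ)) * ψ y
      = ∫ b : ℝ, ∫ t : ℝ, cexp (I * (ph h x (t, b) : ℂ)) * ψ (t, b) :=
    integral_prod_symm _ hint'
  have it2 : ∫ y : ℝ × ℝ, cexp (I * (ph h x y : ℂ)) * ψ y
      = ∫ a : ℝ, ∫ t : ℝ, cexp (I * (ph h x (a, t) : ℂ)) * ψ (a, t) :=
    integral_prod _ hint'
  have z1 : ∀ b, b ∉ Icc (-r) r → ∫ t : ℝ, cexp (I * (ph h x (t, b) : ℂ)) * ψ (t, b) = 0 := by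
    intro b hb
    rw [integral_eq_zero_of_ae]
    refine Filter.Eventually.of_forall fun t => ?_
    simp only [Pi.zero_apply]
    rw [hsu (t, b) fun h => hb h.2, mul_zero]
  have z2 : ∀ a, a ∉ Icc (-r) r → ∫ t : ℝ, cexp (I * (ph h x (a, t) : ℂ)) * ψ (a, t) = 0 := by
    intro b hb
    rw [integral_eq_zero_of_ae]
    refine Filter.Eventually.of_forall fun t => ?_
    simp only [Pi.zero_apply]
    rw [hsu (b, t) fun h => hb h.1, mul_zero]
  have hnorm := norm_E3_le x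
  have hx0 := abs_nonneg (x 0)
  have hx1 := abs_nonneg (x 1)
  have hx2 := abs_nonneg (x 2)
  have hsqle : Real.sqrt (1 + ‖x‖) ≤ 1 + ‖x‖ := by
    rw [Real.sqrt_le_left (by positivity)]
    nlinarith [norm_nonneg x]
  -- trivial bound
  by_cases hsmall : ‖x‖ ≤ 1
  · have ht : ‖∫ y : ℝ × ℝ, cexp (I * (ph h x y : ℂ)) * ψ y‖ ≤ 4 * r ^ 2 * M := by
      rw [it1]
      refine (outer_le hr z1 (B := 2 * r * M) fun b hb => ?_).trans (le_of_eq (by ring))
      refine outer_le hr ?_ fun t ht => ?_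
      · intro t ht
        rw [hsu (t, b) fun h => ht h.1, mul_zero]
      · rw [norm_mul, mul_comm I, Complex.norm_exp_ofReal_mul_I, one_mul]
        exact c5 _ ⟨ht, hb⟩
    calc _ ≤ 4 * r ^ 2 * M * 2 := mul_le_mul ht (hsqle.trans (by linarith)) hsq0.le (by positivity)
      _ ≤ C1 + 48 * r ^ 2 * M := by nlinarith [mul_nonneg (sq_nonneg r) hM0]
  push Not at hsmall
  by_cases hA : |x 0| ≤ |x 2| * (2 * M + 1) ∧ |x 1| ≤ |x 2| * (2 * M + 1)
  · -- second derivative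
    have hx2' : x 2 ≠ 0 := by
      intro h0
      rw [h0, abs_zero, zero_mul] at hA
      rw [h0, abs_zero] at hnorm
      linarith [hA.1, hA.2]
    have hp2 : 0 < |x 2| := abs_pos.mpr hx2'
    have hb : ‖∫ y : ℝ × ℝ, cexp (I * (ph h x y : ℂ)) * ψ y‖
        ≤ 2 * r * (8 / Real.sqrt (Real.pi * |x 2|) * (2 * r * M)) := by
      rw [it1]
      exact outer_le hr z1 fun b hb => inner_vdc hs hr hD hψ hsu c6 x hx2' b hb
    have hs1 : Real.sqrt (1 + ‖x‖) ≤ Real.sqrt (2 * (4 * M + 3)) * Real.sqrt |x 2| := by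
      rw [← Real.sqrt_mul (by positivity)]
      refine Real.sqrt_le_sqrt ?_
      nlinarith [hA.1, hA.2]
    have hs2 : Real.sqrt |x 2| ≤ Real.sqrt (Real.pi * |x 2|) := by
      refine Real.sqrt_le_sqrt ?_
      nlinarith [Real.pi_gt_three]
    have hs3 : 0 < Real.sqrt |x 2| := Real.sqrt_pos.mpr hp2
    calc ‖∫ y : ℝ × ℝ, cexp (I * (ph h x y : ℂ)) * ψ y‖ * Real.sqrt (1 + ‖x‖)
        ≤ (2 * r * (8 / Real.sqrt (Real.pi * |x 2|) * (2 * r * M))) *
          (Real.sqrt (2 * (4 * M + 3)) * Real.sqrt |x 2|) :=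
          mul_le_mul hb hs1 hsq0.le (by positivity)
      _ ≤ (2 * r * (8 / Real.sqrt |x 2| * (2 * r * M))) *
          (Real.sqrt (2 * (4 * M + 3)) * Real.sqrt |x 2|) := by gcongr
      _ = C1 := by rw [hC1]; field_simp; ring
      _ ≤ C1 + 48 * r ^ 2 * M := by have : 0 ≤ 48 * r ^ 2 * M := by positivity
                                    linarith
  · -- non-stationary
    by_cases h01 : |x 1| ≤ |x 0|
    · have hsm : |x 2| * (2 * M + 1) ≤ |x 0| := by
        by_contra hc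
        push Not at hc
        exact hA ⟨hc.le, h01.trans hc.le⟩
      have hx0' : x 0 ≠ 0 := by
        intro h0
        rw [h0, abs_zero] at hsm h01 hnorm
        nlinarith
      have hp0 : 0 < |x 0| := abs_pos.mpr hx0'
      have hb : ‖∫ y : ℝ × ℝ, cexp (I * (ph h x y : ℂ)) * ψ y‖
          ≤ 2 * r * (2 * r * (M + M) / |x 0|) := by
        rw [it1]
        exact outer_le hr z1 fun b hb => inner_ns1 hs hr hM0 c1 c3 hψ hsu c5 c6 x hx0' hsm b hb
      have hs1 : Real.sqrt (1 + ‖x‖) ≤ 6 * |x 0| := by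
        refine hsqle.trans ?_
        nlinarith
      calc ‖∫ y : ℝ × ℝ, cexp (I * (ph h x y : ℂ)) * ψ y‖ * Real.sqrt (1 + ‖x‖)
          ≤ (2 * r * (2 * r * (M + M) / |x 0|)) * (6 * |x 0|) :=
            mul_le_mul hb hs1 hsq0.le (by positivity)
        _ = 48 * r ^ 2 * M := by field_simp; ring
        _ ≤ C1 + 48 * r ^ 2 * M := by linarith
    · push Not at h01
      have hsm : |x 2| * (2 * M + 1) ≤ |x 1| := by
        by_contra hc
        push Not at hc
        exact hA ⟨(h01.trans hc).le, hc.le⟩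
      have hx1' : x 1 ≠ 0 := by
        intro h0
        rw [h0, abs_zero] at h01
        linarith
      have hp1 : 0 < |x 1| := abs_pos.mpr hx1'
      have hb : ‖∫ y : ℝ × ℝ, cexp (I * (ph h x y : ℂ)) * ψ y‖
          ≤ 2 * r * (2 * r * (M + M) / |x 1|) := by
        rw [it2]
        exact outer_le hr z2 fun b hb => inner_ns2 hs hr hM0 c2 c4 hψ hsu c5 c7 x hx1' hsm b hb
      have hs1 : Real.sqrt (1 + ‖x‖) ≤ 6 * |x 1| := by
        refine hsqle.trans ?_
        nlinarith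
      calc ‖∫ y : ℝ × ℝ, cexp (I * (ph h x y : ℂ)) * ψ y‖ * Real.sqrt (1 + ‖x‖)
          ≤ (2 * r * (2 * r * (M + M) / |x 1|)) * (6 * |x 1|) :=
            mul_le_mul hb hs1 hsq0.le (by positivity)
        _ = 48 * r ^ 2 * M := by field_simp; ring
        _ ≤ C1 + 48 * r ^ 2 * M := by linarith

end Vale.Agent.P122.H567
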