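import Vale.Agent.P122.FI.Defs
import Vale.Agent.P122.EPS895.Defs
import Vale.Agent.P122.H567.Decay

/-!
# [FI-AB] : `GRAPH` from `LOC2 K` and the abstract epsilon removal
-/

namespace Vale.Agent.P122.H567

open MeasureTheory Set Complex Vale.Agent.P122.FI
open scoped ENNReal NNReal ContDiff

/-- the abstract epsilon removal (block FI-A). -/
def EpsRem (K : ℕ) : Prop :=
  ∀ (μ : Measure E3) (A β C : ℝ), IsFiniteMeasure μ → EPS.Growth μ A → 0 < β → EPS.Decay μ β C →
    EPS.Loc μ K → EPS.Strong μ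

lemma continuous_gr {h : ℝ × ℝ → ℝ} (hs : Continuous h) : Continuous (gr h) := by
  unfold gr
  refine (PiLp.continuous_toLp 2 _).comp ?_
  refine continuous_pi fun i => ?_
  fin_cases i
  · exact continuous_fst
  · exact continuous_snd
  · exact hs

@[simp] lemma gr_0 (h : ℝ × ℝ → ℝ) (y : ℝ × ℝ) : gr h y 0 = y.1 := rfl
@[simp] lemma gr_1 (h : ℝ × ℝ → ℝ) (y : ℝ × ℝ) : gr h y 1 = y.2 := rfl
@[simp] lemma gr_2 (h : ℝ × ℝ → ℝ) (y : ℝ × ℝ) : gr h y 2 = h y := rfl

lemma ch_gr (h : ℝ × ℝ → ℝ) (x : E3) (y : ℝ × ℝ) :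
    EPS.ch x (gr h y) = cexp (2 * Real.pi * I * ((x 0 * y.1 + x 1 * y.2 + x 2 * h y : ℝ) : ℂ)) := by
  unfold EPS.ch
  congr 1
  rw [PiLp.inner_apply, Fin.sum_univ_three]
  simp only [gr_0, gr_1, gr_2, RCLike.inner_apply, conj_trivial]
  push_cast
  ring

variable (h : ℝ × ℝ → ℝ) (χ : ℝ × ℝ → ℝ)

/-- the measure `χ(y) dy` on the graph. -/
noncomputable def mu : Measure E3 :=
  ((volume : Measure (ℝ × ℝ)).withDensity fun y => ENNReal.ofReal (χ y)).map (gr h)

variable {h χ}

lemma Ext_mu (hc : Continuous h) (hχ : Measurable χ) (hχ0 : ∀ y, 0 ≤ χ y) {g : E3 → ℂ}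
    (hg : Measurable g) (x : E3) :
    EPS.Ext (mu h χ) g x = FI.Ext h (fun y => g (gr h y) * (χ y : ℂ)) x := by
  unfold EPS.Ext mu FI.Ext
  have hm : Measurable (gr h) := (continuous_gr hc).measurable
  have hm2 : Measurable fun ξ : E3 => g ξ * EPS.ch x ξ :=
    hg.mul (EPS.continuous_ch_right x).measurable
  rw [integral_map hm.aemeasurable hm2.aestronglyMeasurable]
  have e : (fun y => ENNReal.ofReal (χ y)) = fun y => ((Real.toNNReal (χ y) : ℝ≥0) : ℝ≥0∞) := rfl
  rw [e, integral_withDensity_eq_integral_smul hχ.real_toNNReal]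
  refine integral_congr_ae (Filter.Eventually.of_forall fun y => ?_)
  simp only
  rw [ch_gr, NNReal.smul_def, Real.coe_toNNReal _ (hχ0 y), Complex.real_smul]
  ring

/-- **[FI-AB]** -/
theorem graph_of {K : ℕ} (hE : EpsRem K) (hL : LOC2 K) : GRAPH := by
  intro h hP
  obtain ⟨r0, hr0, hloc⟩ := hL h hP
  obtain ⟨r1, hr1, hr1', hD⟩ := exists_radius hP
  set r := min r0 r1 with hrdef
  have hr : 0 < r := lt_min hr0 hr1
  have hsub0 : sq r ⊆ sq r0 := by
    intro y hy
    have : r ≤ r0 := min_le_left _ _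
    exact ⟨⟨by linarith [hy.1.1], hy.1.2.trans this⟩, ⟨by linarith [hy.2.1], hy.2.2.trans this⟩⟩
  have hsub1 : sq r ⊆ sq r1 := by
    intro y hy
    have : r ≤ r1 := min_le_right _ _
    exact ⟨⟨by linarith [hy.1.1], hy.1.2.trans this⟩, ⟨by linarith [hy.2.1], hy.2.2.trans this⟩⟩
  -- the cut-off
  let χ : ContDiffBump (0 : ℝ × ℝ) := ⟨r / 2, r, by positivity, by linarith⟩
  have hχs : ContDiff ℝ ∞ (χ : ℝ × ℝ → ℝ) := χ.contDiff
  have hχ0 : ∀ y, 0 ≤ χ y := fun y => χ.nonneg
  have hχ1 : ∀ y, χ y ≤ 1 := fun y => χ.le_one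
  have hχoff : ∀ y, y ∉ sq r → χ y = 0 := by
    intro y hy
    refine χ.zero_of_le_dist ?_
    rw [dist_zero_right, Prod.norm_def]
    by_contra hlt
    push Not at hlt
    rw [max_lt_iff, Real.norm_eq_abs, Real.norm_eq_abs] at hlt
    exact hy ⟨abs_le.mp hlt.1.le, abs_le.mp hlt.2.le⟩
  have hχin : ∀ y ∈ sq (r / 2), χ y = 1 := by
    intro y hy
    refine χ.one_of_mem_closedBall ?_
    rw [mem_closedBall_zero_iff, Prod.norm_def, max_le_iff, Real.norm_eq_abs, Real.norm_eq_abs]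
    exact ⟨abs_le.mpr hy.1, abs_le.mpr hy.2⟩
  have hhc : Continuous h := hP.smooth.continuous
  have hχc : Continuous (χ : ℝ × ℝ → ℝ) := hχs.continuous
  -- finiteness
  have hvol : ∀ (a b ρ : ℝ), 0 ≤ ρ → (volume : Measure (ℝ × ℝ)) (Metric.closedBall (a, b) ρ)
      = ENNReal.ofReal (4 * ρ ^ 2) := by
    intro a b ρ hρ
    rw [← closedBall_prod_same, Measure.volume_eq_prod, Measure.prod_prod,
      Real.volume_closedBall, Real.volume_closedBall, ← ENNReal.ofReal_mul (by positivity)]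
    congr 1; ring
  have hmeas : Measurable (gr h) := (continuous_gr hhc).measurable
  have hgrowth : EPS.Growth (mu h χ) 4 := by
    intro ξ ρ hρ
    unfold mu
    rw [Measure.map_apply hmeas Metric.isClosed_closedBall.measurableSet,
      withDensity_apply _ (hmeas Metric.isClosed_closedBall.measurableSet)]
    calc ∫⁻ y in gr h ⁻¹' Metric.closedBall ξ ρ, ENNReal.ofReal (χ y)
        ≤ ∫⁻ y in gr h ⁻¹' Metric.closedBall ξ ρ, 1 :=
          lintegral_mono fun y => ENNReal.ofReal_le_one.mpr (hχ1 y)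
      _ = volume (gr h ⁻¹' Metric.closedBall ξ ρ) := by rw [setLIntegral_one]
      _ ≤ volume (Metric.closedBall ((ξ 0, ξ 1) : ℝ × ℝ) ρ) := by
          refine measure_mono fun y hy => ?_
          rw [mem_preimage, Metric.mem_closedBall, EuclideanSpace.dist_eq, Fin.sum_univ_three] at hy
          have h1 := Real.sqrt_le_iff.mp hy
          simp only [gr_0, gr_1, gr_2] at h1
          rw [Metric.mem_closedBall, Prod.dist_eq, max_le_iff]
          constructor
          · have q : dist y.1 (ξ 0) ^ 2 ≤ ρ ^ 2 := by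
              nlinarith [h1.2, sq_nonneg (dist y.2 (ξ 1)), sq_nonneg (dist (h y) (ξ 2))]
            exact (abs_le_of_sq_le_sq' q hρ.le).2
          · have q : dist y.2 (ξ 1) ^ 2 ≤ ρ ^ 2 := by
              nlinarith [h1.2, sq_nonneg (dist y.1 (ξ 0)), sq_nonneg (dist (h y) (ξ 2))]
            exact (abs_le_of_sq_le_sq' q hρ.le).2
      _ = ENNReal.ofReal (4 * ρ ^ 2) := hvol _ _ _ hρ.le
  have hfin : IsFiniteMeasure (mu h χ) := by
    refine ⟨?_⟩
    unfold mu
    rw [Measure.map_apply hmeas MeasurableSet.univ, preimage_univ, withDensity_apply _ MeasurableSet.univ,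
      Measure.restrict_univ]
    calc ∫⁻ y, ENNReal.ofReal (χ y) ≤ ∫⁻ y, (FI.sq r).indicator (fun _ => 1) y := by
          refine lintegral_mono fun y => ?_
          by_cases hy : y ∈ FI.sq r
          · rw [indicator_of_mem hy]; exact ENNReal.ofReal_le_one.mpr (hχ1 y)
          · rw [hχoff y hy]; simp
      _ = volume (FI.sq r) := by
          rw [lintegral_indicator (isCompact_sq r).isClosed.measurableSet, setLIntegral_one]
      _ < ⊤ := (isCompact_sq r).measure_lt_top
  -- decay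
  have hψ : ContDiff ℝ ∞ (fun y => (χ y : ℂ)) := Complex.ofRealCLM.contDiff.comp hχs
  obtain ⟨C, hC0, hC⟩ := decay hP.smooth hr (fun y hy => hD y (hsub1 hy)) hψ
    (fun y hy => by rw [hχoff y hy]; simp)
  have hdecay : EPS.Decay (mu h χ) (1 / 2) C := by
    intro x
    rw [Ext_mu hhc hχc.measurable hχ0 measurable_const]
    simp only [one_mul]
    refine (hC x).trans (le_of_eq ?_)
    rw [div_eq_mul_inv, Real.sqrt_eq_rpow, Real.rpow_neg (by positivity)]
  -- the local estimate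
  have hLoc : EPS.Loc (mu h χ) K := by
    intro ε hε
    obtain ⟨C', hC', hb⟩ := hloc ε hε
    refine ⟨C', hC', fun R g hR hg hg1 => ?_⟩
    have hg' : Measurable fun y => g (gr h y) * ((χ y : ℝ) : ℂ) :=
      (hg.comp hmeas).mul (Complex.measurable_ofReal.comp hχc.measurable)
    have := hb R (fun y => g (gr h y) * ((χ y : ℝ) : ℂ)) hR hg' (fun y => by
        rw [norm_mul, Complex.norm_real, Real.norm_eq_abs, abs_of_nonneg (hχ0 y)]
        exact mul_le_one₀ (hg1 _) (hχ0 y) (hχ1 y))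
      (fun y hy => by rw [hχoff y fun h' => hy (hsub0 h')]; simp)
    simp only [Ext_mu hhc hχc.measurable hχ0 hg]
    exact this
  have hstrong := hE (mu h χ) 4 (1 / 2) C hfin hgrowth (by norm_num) hdecay hLoc
  refine ⟨r / 2, by positivity, fun p hp => ?_⟩
  obtain ⟨Cp, hCp⟩ := hstrong p hp
  refine ⟨Cp, fun f hf hfs => ?_⟩
  set g : E3 → ℂ := fun ξ => f (ξ 0, ξ 1) with hgdef
  have hgm : Measurable g := hf.comp (by fun_prop)
  have e1 : FI.Ext h f = EPS.Ext (mu h χ) g := by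
    funext x
    rw [Ext_mu hhc hχc.measurable hχ0 hgm]
    congr 1
    funext y
    simp only [hgdef, gr_0, gr_1, Prod.mk.eta]
    by_cases hy : y ∈ sq (r / 2)
    · rw [hχin y hy]; simp
    · rw [hfs y hy]; simp
  rw [e1]
  refine (hCp g hgm).trans ?_
  gcongr
  unfold mu
  rw [eLpNorm_map_measure hgm.aestronglyMeasurable hmeas.aemeasurable]
  have e2 : g ∘ gr h = f := by
    funext y
    simp [hgdef]
  rw [e2]
  refine eLpNorm_mono_measure f ?_
  refine Measure.le_iff.mpr fun s hs => ?_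
  rw [withDensity_apply _ hs]
  calc ∫⁻ y in s, ENNReal.ofReal (χ y) ≤ ∫⁻ y in s, 1 :=
        lintegral_mono fun y => ENNReal.ofReal_le_one.mpr (hχ1 y)
    _ = volume s := by rw [setLIntegral_one]

end Vale.Agent.P122.H567
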